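import Vale.Agent.P039.Bn.Defs
import Mathlib.LinearAlgebra.Matrix.Rank
import Mathlib.LinearAlgebra.FiniteDimensional.Lemmas
import Mathlib.Algebra.BigOperators.Field
import Mathlib.Data.Rat.Defs

/-! Exactness of the chain complex of `J` (corners) over a field. -/

namespace Vale.Agent.P039.Bar.H307

set_option linter.unusedSectionVars false

open Vale.Agent.P039.Bn Matrix

variable {B W V : Type} {K : Type*} [Field K]

section
variable {ι κ : Type*} [Fintype ι] [Fintype κ]

theorem finrank_ker_le_one (M : Matrix κ ι K) (a : ι → K)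
    (h : ∀ z : ι → K, M.mulVec z = 0 → ∃ t : K, z = t • a) :
    Module.finrank K (LinearMap.ker M.mulVecLin) ≤ 1 := by
  classical
  have h1 : LinearMap.ker M.mulVecLin ≤ Submodule.span K {a} := by
    intro z hz
    rw [LinearMap.mem_ker, Matrix.mulVecLin_apply] at hz
    obtain ⟨t, ht⟩ := h z hz
    rw [Submodule.mem_span_singleton]
    exact ⟨t, ht.symm⟩
  calc _ ≤ Module.finrank K (Submodule.span K {a}) := Submodule.finrank_mono h1
    _ ≤ 1 := by
      have := finrank_span_le_card (R := K) ({a} : Set (ι → K))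
      simpa using this

theorem card_le_rank_add_one (M : Matrix κ ι K) (a : ι → K)
    (h : ∀ z : ι → K, M.mulVec z = 0 → ∃ t : K, z = t • a) :
    Fintype.card ι ≤ M.rank + 1 := by
  have h1 := LinearMap.finrank_range_add_finrank_ker M.mulVecLin
  have h2 := finrank_ker_le_one M a h
  rw [Module.finrank_fintype_fun_eq_card] at h1
  unfold Matrix.rank
  omega

end

/-- exactness in the middle from ranks -/
theorem exact_of_ranks {ι κ μ : Type*} [Fintype ι] [Fintype κ] [Fintype μ]
    (D : Matrix κ ι K) (P : Matrix μ κ K) (a : ι → K) (b : μ → K)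
    (hD : ∀ z, D.mulVec z = 0 → ∃ t : K, z = t • a)
    (hP : ∀ z, P.transpose.mulVec z = 0 → ∃ t : K, z = t • b)
    (hPD : ∀ z, P.mulVec (D.mulVec z) = 0)
    (hc : Fintype.card κ + 2 ≤ Fintype.card ι + Fintype.card μ)
    (y : κ → K) (hy : P.mulVec y = 0) : ∃ z, D.mulVec z = y := by
  classical
  have h1 := card_le_rank_add_one D a hD
  have h2 := card_le_rank_add_one P.transpose b hP
  rw [Matrix.rank_transpose] at h2
  have h3 := LinearMap.finrank_range_add_finrank_ker P.mulVecLin
  rw [Module.finrank_fintype_fun_eq_card] at h3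
  have h4 : LinearMap.range D.mulVecLin ≤ LinearMap.ker P.mulVecLin := by
    rintro _ ⟨x, rfl⟩
    rw [LinearMap.mem_ker]
    exact hPD x
  have h5 : Module.finrank K (LinearMap.ker P.mulVecLin) ≤
      Module.finrank K (LinearMap.range D.mulVecLin) := by
    unfold Matrix.rank at h1 h2
    omega
  have h6 := Submodule.eq_of_le_of_finrank_le h4 h5
  have h7 : y ∈ LinearMap.range D.mulVecLin := by
    rw [h6, LinearMap.mem_ker]; exact hy
  exact h7

/-- surjectivity onto sum-zero functions -/
theorem onto_sum_zero {ι κ : Type*} [Fintype ι] [Fintype κ] (D : Matrix κ ι K)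
    (hD : ∀ z, D.mulVec z = 0 → ∃ t : K, z = t • (fun _ => (1 : K)))
    (hs : ∀ y, ∑ i, (D.transpose.mulVec y) i = 0)
    (h : ι → K) (hh : ∑ i, h i = 0) : ∃ y, D.transpose.mulVec y = h := by
  classical
  by_cases hι : Nonempty ι
  swap
  · exact ⟨0, by funext i; exact absurd ⟨i⟩ hι⟩
  obtain ⟨i₀⟩ := hι
  have h1 := card_le_rank_add_one D (fun _ => (1 : K)) hD
  rw [← Matrix.rank_transpose] at h1
  let s : (ι → K) →ₗ[K] K := ∑ i, LinearMap.proj i
  have hs' : ∀ z, s z = ∑ i, z i := fun z => by simp [s]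
  have h3 := LinearMap.finrank_range_add_finrank_ker s
  rw [Module.finrank_fintype_fun_eq_card] at h3
  have hsurj : LinearMap.range s = ⊤ := by
    rw [LinearMap.range_eq_top]
    intro t
    refine ⟨Pi.single i₀ t, ?_⟩
    rw [hs']
    simp
  rw [hsurj, finrank_top, Module.finrank_self] at h3
  have h4 : LinearMap.range D.transpose.mulVecLin ≤ LinearMap.ker s := by
    rintro _ ⟨x, rfl⟩
    rw [LinearMap.mem_ker, hs']
    exact hs x
  have h5 : Module.finrank K (LinearMap.ker s) ≤
      Module.finrank K (LinearMap.range D.transpose.mulVecLin) := by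
    unfold Matrix.rank at h1
    omega
  have h6 := Submodule.eq_of_le_of_finrank_le h4 h5
  have h7 : h ∈ LinearMap.range D.transpose.mulVecLin := by
    rw [h6, LinearMap.mem_ker, hs']; exact hh
  exact h7

section web

variable [Fintype B] [Fintype W] [Fintype V] [DecidableEq B] [DecidableEq W] [DecidableEq V]
  (M : PMap B W V)

/-- boundary of 2-chains -/
def dmat (K : Type*) [Field K] (M : PMap B W V) : Matrix (Fin 3 × B) W K :=
  Matrix.of fun x w => (if M.e (x.1 + 1) x.2 = w then 1 else 0) -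
    (if M.e (x.1 + 2) x.2 = w then 1 else 0)

/-- boundary of 1-chains -/
def pmat (K : Type*) [Field K] (M : PMap B W V) : Matrix (B ⊕ V) (Fin 3 × B) K :=
  Matrix.of fun y x => Sum.elim (fun b => if x.2 = b then 1 else 0)
    (fun v => if M.c x.1 x.2 = v then 1 else 0) y

theorem dmat_mulVec (n : W → K) (j : Fin 3) (b : B) :
    (dmat K M).mulVec n (j, b) = n (M.e (j + 1) b) - n (M.e (j + 2) b) := by
  simp [dmat, Matrix.mulVec, dotProduct, sub_mul, Finset.sum_sub_distrib]

theorem dmat_transpose_mulVec (u : Fin 3 × B → K) (w : W) :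
    (dmat K M).transpose.mulVec u w =
      ∑ i : Fin 3, (u (i + 2, (M.e i).symm w) - u (i + 1, (M.e i).symm w)) := by
  have h1 : ∀ i : Fin 3, ∀ j : Fin 3, ∑ b : B, (if M.e i b = w then (1 : K) else 0) * u (j, b) =
      u (j, (M.e i).symm w) := by
    intro i j
    rw [Finset.sum_eq_single ((M.e i).symm w)]
    · simp
    · intro b _ hb
      rw [if_neg, zero_mul]
      intro h
      exact hb (by rw [← h, Equiv.symm_apply_apply])
    · intro h
      exact absurd (Finset.mem_univ _) h
  simp only [dmat, Matrix.mulVec, dotProduct, Matrix.transpose_apply, Matrix.of_apply, sub_mul,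
    Finset.sum_sub_distrib, Fintype.sum_prod_type, h1, Fin.sum_univ_three]
  have e1 : (0 : Fin 3) + 1 = 1 := rfl
  have e2 : (1 : Fin 3) + 1 = 2 := rfl
  have e3 : (2 : Fin 3) + 1 = 0 := rfl
  have e4 : (0 : Fin 3) + 2 = 2 := rfl
  have e5 : (1 : Fin 3) + 2 = 0 := rfl
  have e6 : (2 : Fin 3) + 2 = 1 := rfl
  simp only [e1, e2, e3, e4, e5, e6]
  ring

theorem pmat_mulVec_inl (x : Fin 3 × B → K) (b : B) :
    (pmat K M).mulVec x (Sum.inl b) = ∑ j, x (j, b) := by
  simp [pmat, Matrix.mulVec, dotProduct, Fintype.sum_prod_type]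

theorem pmat_mulVec_inr (x : Fin 3 × B → K) (v : V) :
    (pmat K M).mulVec x (Sum.inr v) = ∑ j, ∑ b, if M.c j b = v then x (j, b) else 0 := by
  simp [pmat, Matrix.mulVec, dotProduct, Fintype.sum_prod_type]

theorem pmat_transpose_mulVec (y : B ⊕ V → K) (j : Fin 3) (b : B) :
    (pmat K M).transpose.mulVec y (j, b) = y (Sum.inl b) + y (Sum.inr (M.c j b)) := by
  simp [pmat, Matrix.mulVec, dotProduct, Fintype.sum_sum_type]

variable {M}

/-- a function on black triangles that agrees around the vertices is constant -/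
theorem const_of_same (hM : M.Conn) {α : Type*} (z : B → α)
    (hz : ∀ j x y, M.c j x = M.c j y → z x = z y) (b b' : B) : z b = z b' := by
  have h := hM b b'
  induction h with
  | rel x y h => obtain ⟨j, hj⟩ := h; exact hz j x y hj
  | refl x => rfl
  | symm x y _ ih => exact ih.symm
  | trans x y z _ _ ih1 ih2 => exact ih1.trans ih2

theorem const_of_rho (hM : M.Conn) {α : Type*} (z : B → α)
    (hz : ∀ j x, z (M.rho j x) = z x) (b b' : B) : z b = z b' := by
  refine const_of_same hM z ?_ b b'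
  intro j x y h
  obtain ⟨n, hn⟩ := (M.same_iff j x y).1 h
  rw [← hn]
  clear hn h
  induction n with
  | zero => rfl
  | succ n ih => rw [pow_succ', Equiv.Perm.mul_apply, hz]; exact ih

/-- a function on whites whose values agree around every black is constant -/
theorem bd_const (hM : M.Conn) {α : Type*} (n : W → α)
    (hn : ∀ j b, n (M.e (j + 1) b) = n (M.e (j + 2) b)) (w w' : W) : n w = n w' := by
  have h0 : ∀ i j b, n (M.e i b) = n (M.e j b) := by
    intro i j b
    rcases fcase i j with rfl | rfl | rfl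
    · rfl
    · have h := hn (j + 2) b
      rw [f21, f22] at h
      exact h.symm
    · have h := hn (j + 1) b
      rw [f11, f12] at h
      exact h
  have h1 := const_of_rho hM (fun b => n (M.e 0 b)) (by
    intro j x
    show n (M.e 0 (M.rho j x)) = n (M.e 0 x)
    rw [h0 0 (j + 1), M.e_rho, h0 (j + 2) 0])
  have h2 := h1 ((M.e 0).symm w) ((M.e 0).symm w')
  simpa using h2

theorem ker_dmat (hM : M.Conn) (z : W → K) (hz : (dmat K M).mulVec z = 0) :
    ∃ t : K, z = t • (fun _ => (1 : K)) := by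
  by_cases hW : Nonempty W
  swap
  · exact ⟨0, by funext i; exact absurd ⟨i⟩ hW⟩
  obtain ⟨w₀⟩ := hW
  refine ⟨z w₀, ?_⟩
  funext w
  have h := bd_const hM z (fun j b => by
    have h := congrFun hz (j, b)
    rw [dmat_mulVec] at h
    exact sub_eq_zero.1 h) w w₀
  simpa using h

theorem ker_pmat_transpose (hM : M.Conn) (y : B ⊕ V → K)
    (hy : (pmat K M).transpose.mulVec y = 0) :
    ∃ t : K, y = t • (Sum.elim (fun _ => (1 : K)) (fun _ => -1)) := by
  have h0 : ∀ j b, y (Sum.inl b) + y (Sum.inr (M.c j b)) = 0 := fun j b => by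
    rw [← pmat_transpose_mulVec]
    exact congrFun hy (j, b)
  by_cases hB : Nonempty B
  swap
  · refine ⟨0, ?_⟩
    funext i
    rcases i with b | v
    · exact absurd ⟨b⟩ hB
    · obtain ⟨j, b, _⟩ := M.surj v
      exact absurd ⟨b⟩ hB
  obtain ⟨b₀⟩ := hB
  have h1 : ∀ b, y (Sum.inl b) = y (Sum.inl b₀) := fun b =>
    const_of_same hM (fun b => y (Sum.inl b)) (by
      intro j x x' h
      have e1 := h0 j x
      have e2 := h0 j x'
      rw [h] at e1
      exact add_right_cancel (e1.trans e2.symm)) b b₀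
  refine ⟨y (Sum.inl b₀), ?_⟩
  funext i
  rcases i with b | v
  · simpa using h1 b
  · obtain ⟨j, b, rfl⟩ := M.surj v
    have e := h0 j b
    rw [h1 b] at e
    simp only [Pi.smul_apply, Sum.elim_inr, smul_eq_mul, mul_neg, mul_one]
    exact (neg_eq_of_add_eq_zero_right e).symm

theorem pmat_dmat (n : W → K) : (pmat K M).mulVec ((dmat K M).mulVec n) = 0 := by
  funext i
  rcases i with b | v
  · rw [pmat_mulVec_inl]
    simp only [dmat_mulVec, Fin.sum_univ_three]
    have e1 : (0 : Fin 3) + 1 = 1 := rfl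
    have e2 : (1 : Fin 3) + 1 = 2 := rfl
    have e3 : (2 : Fin 3) + 1 = 0 := rfl
    have e4 : (0 : Fin 3) + 2 = 2 := rfl
    have e5 : (1 : Fin 3) + 2 = 0 := rfl
    have e6 : (2 : Fin 3) + 2 = 1 := rfl
    simp only [e1, e2, e3, e4, e5, e6, Pi.zero_apply]
    ring
  · rw [pmat_mulVec_inr]
    simp only [dmat_mulVec, Pi.zero_apply]
    apply Finset.sum_eq_zero
    intro j _
    have h1 : ∀ b, (if M.c j b = v then n (M.e (j + 1) b) - n (M.e (j + 2) b) else 0) =
        (if M.c j b = v then n (M.e (j + 1) b) else 0) -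
          (if M.c j b = v then n (M.e (j + 2) b) else 0) := by
      intro b; split_ifs <;> simp
    simp only [h1, Finset.sum_sub_distrib]
    rw [sub_eq_zero, ← Equiv.sum_comp (M.rho j)]
    apply Finset.sum_congr rfl
    intro b _
    rw [M.c_rho, M.e_rho]

omit [DecidableEq B] [DecidableEq W] [DecidableEq V] [Fintype V] in
theorem card_W (M : PMap B W V) : Fintype.card W = Fintype.card B :=
  (Fintype.card_congr (M.e 0)).symm

/-- **exactness of the corner complex** -/
theorem hom1 (hM : M.Sph) (x : Fin 3 → B → K) (h1 : ∀ b, ∑ j, x j b = 0)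
    (h2 : ∀ v, (∑ j, ∑ b, if M.c j b = v then x j b else 0) = 0) :
    ∃ n : W → K, ∀ j b, x j b = n (M.e (j + 1) b) - n (M.e (j + 2) b) := by
  obtain ⟨n, hn⟩ := exact_of_ranks (dmat K M) (pmat K M) _ _ (ker_dmat hM.conn)
    (ker_pmat_transpose hM.conn) pmat_dmat (by
      rw [Fintype.card_prod, Fintype.card_sum, Fintype.card_fin, card_W M, hM.card]
      omega) (fun y => x y.1 y.2) (by
      funext i
      rcases i with b | v
      · rw [pmat_mulVec_inl]; exact h1 b
      · rw [pmat_mulVec_inr]; exact h2 v)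
  refine ⟨n, fun j b => ?_⟩
  have h := congrFun hn (j, b)
  rw [dmat_mulVec] at h
  exact h.symm

/-- **Euler inequality**: a connected web has at most `N + 2` faces -/
theorem card_V_le (hM : M.Conn) : Fintype.card V ≤ Fintype.card B + 2 := by
  have h1 := card_le_rank_add_one (dmat ℚ M) _ (ker_dmat hM)
  have h2 := card_le_rank_add_one (pmat ℚ M).transpose _ (ker_pmat_transpose hM)
  rw [Matrix.rank_transpose] at h2
  have h3 := LinearMap.finrank_range_add_finrank_ker (pmat ℚ M).mulVecLin
  rw [Module.finrank_fintype_fun_eq_card] at h3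
  have h4 : LinearMap.range (dmat ℚ M).mulVecLin ≤ LinearMap.ker (pmat ℚ M).mulVecLin := by
    rintro _ ⟨x, rfl⟩
    rw [LinearMap.mem_ker]
    exact pmat_dmat x
  have h5 := Submodule.finrank_mono h4
  have h6 := card_W M
  rw [Fintype.card_sum] at h2
  rw [Fintype.card_prod, Fintype.card_fin] at h3
  unfold Matrix.rank at h1 h2
  omega

/-- **curl is onto the sum-zero functions** -/
theorem exists_u (hM : M.Conn) (h : W → K) (hh : ∑ w, h w = 0) :
    ∃ u : Fin 3 → B → K, ∀ w,
      ∑ i, (u (i + 2) ((M.e i).symm w) - u (i + 1) ((M.e i).symm w)) = h w := by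
  obtain ⟨y, hy⟩ := onto_sum_zero (dmat K M) (ker_dmat hM) (by
    intro y
    simp only [dmat_transpose_mulVec]
    rw [Finset.sum_comm]
    have h1 : ∀ i j : Fin 3, ∑ w, y (j, (M.e i).symm w) = ∑ b, y (j, b) := fun i j =>
      Equiv.sum_comp (M.e i).symm (fun b => y (j, b))
    simp only [Finset.sum_sub_distrib, h1, Fin.sum_univ_three]
    have e1 : (0 : Fin 3) + 1 = 1 := rfl
    have e2 : (1 : Fin 3) + 1 = 2 := rfl
    have e3 : (2 : Fin 3) + 1 = 0 := rfl
    have e4 : (0 : Fin 3) + 2 = 2 := rfl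
    have e5 : (1 : Fin 3) + 2 = 0 := rfl
    have e6 : (2 : Fin 3) + 2 = 1 := rfl
    simp only [e1, e2, e3, e4, e5, e6]
    ring) h hh
  refine ⟨fun j b => y (j, b), fun w => ?_⟩
  rw [← hy, dmat_transpose_mulVec]

/-- Stokes: pairing of a boundary with `u` -/
theorem stokes0 (n : W → K) (u : Fin 3 → B → K) :
    ∑ j, ∑ b, (n (M.e (j + 1) b) - n (M.e (j + 2) b)) * u j b =
      ∑ w, n w * ∑ i, (u (i + 2) ((M.e i).symm w) - u (i + 1) ((M.e i).symm w)) := by
  have h1 : ∀ i j : Fin 3, ∑ b, n (M.e i b) * u j b = ∑ w, n w * u j ((M.e i).symm w) := by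
    intro i j
    rw [← Equiv.sum_comp (M.e i)]
    simp
  simp only [Fin.sum_univ_three, mul_sub, mul_add, sub_mul, Finset.sum_sub_distrib,
    Finset.sum_add_distrib, h1]
  have e1 : (0 : Fin 3) + 1 = 1 := rfl
  have e2 : (1 : Fin 3) + 1 = 2 := rfl
  have e3 : (2 : Fin 3) + 1 = 0 := rfl
  have e4 : (0 : Fin 3) + 2 = 2 := rfl
  have e5 : (1 : Fin 3) + 2 = 0 := rfl
  have e6 : (2 : Fin 3) + 2 = 1 := rfl
  simp only [e1, e2, e3, e4, e5, e6]
  ring

/-- sums over an additive group form of `stokes0` for the boundary of `x` -/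
theorem stokes (x : Fin 3 → B → K) (n : W → K)
    (hx : ∀ j b, x j b = n (M.e (j + 1) b) - n (M.e (j + 2) b)) (u : Fin 3 → B → K) :
    ∑ j, ∑ b, x j b * u j b =
      ∑ w, n w * ∑ i, (u (i + 2) ((M.e i).symm w) - u (i + 1) ((M.e i).symm w)) := by
  rw [← stokes0]
  simp only [hx]

end web

end Vale.Agent.P039.Bar.H307
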