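import Vale.Agent.P039.Bn.L2.Defs
import Vale.Agent.P039.Bar.H307.T0

/-! Existence of `u` and summation by parts, in the `B → Fin 3 → ℚ` form of `Bn/L2/Defs.lean`. -/

namespace Vale.Agent.P039.Bn

namespace PMap

open Vale.Agent.P039.Bar

variable {B W V : Type} (M : PMap B W V)

/-- every function on the whites with sum zero is a curl -/
theorem exists_u [Fintype B] [Fintype V] [Fintype W] (hM : M.Sph) (h : W → ℚ)
    (hh : ∑ w, h w = 0) : ∃ u : B → Fin 3 → ℚ, ∀ w,
      ∑ i, (u ((M.e i).symm w) (i + 2) - u ((M.e i).symm w) (i + 1)) = h w := by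
  classical
  obtain ⟨u, hu⟩ := H307.exists_u hM.conn h hh
  exact ⟨fun b j => u j b, hu⟩

/-- Stokes -/
theorem stokes [Fintype B] [Fintype V] [Fintype W] (x : B → Fin 3 → ℚ) (n : W → ℚ)
    (hx : ∀ b j, x b j = M.bd n b j) (u : B → Fin 3 → ℚ) :
    ∑ b, ∑ j, x b j * u b j =
      ∑ w, n w * ∑ i, (u ((M.e i).symm w) (i + 2) - u ((M.e i).symm w) (i + 1)) := by
  classical
  rw [Finset.sum_comm]
  exact H307.stokes (M := M) (fun j b => x b j) n (fun j b => hx b j) (fun j b => u b j)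

end PMap

end Vale.Agent.P039.Bn
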